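import Mathlib
import Vale.Agent.Lib.P248.helper25.ABDefs

namespace Vale.Agent.Lib.P248.H50

open Vale.Agent.Lib.P248.H25 MeasureTheory
open scoped ENNReal

theorem cone_subset {n : ℕ} {A : Set (Fin (n + 1) → ℝ)} (hc : Convex ℝ A)
    {x : Fin (n + 1) → ℝ} (hx : x ∈ A) (i : Fin (n + 1)) : cone A x i ⊆ A := by
  rintro p ⟨hp0, hp1, -, hb⟩
  have hxi : 0 < x i := hp0.trans hp1
  have hd : 0 < x i - p i := sub_pos.mpr hp1
  have ht0 : 0 ≤ p i / x i := (div_pos hp0 hxi).le
  have ht1 : 0 ≤ 1 - p i / x i := by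
    rw [sub_nonneg, div_le_one hxi]
    exact hp1.le
  have h := hc hb hx ht1 ht0 (by ring)
  have hp : (1 - p i / x i) • ((x i - p i)⁻¹ • (x i • p - p i • x)) + (p i / x i) • x = p := by
    funext j
    simp only [Pi.add_apply, Pi.smul_apply, Pi.sub_apply, smul_eq_mul]
    field_simp
    ring
  rwa [hp] at h

theorem cone_disjoint {n : ℕ} (A : Set (Fin (n + 1) → ℝ)) (x : Fin (n + 1) → ℝ)
    {i k : Fin (n + 1)} (hik : i ≠ k) : Disjoint (cone A x i) (cone A x k) := by
  rw [Set.disjoint_left]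
  rintro p ⟨-, -, h3, -⟩ ⟨-, -, h3', -⟩
  have h1 := h3 k (Ne.symm hik)
  have h2 := h3' i hik
  nlinarith [h1, h2]

theorem cone_measurable {n : ℕ} {A : Set (Fin (n + 1) → ℝ)} (hA : IsClosed A)
    (x : Fin (n + 1) → ℝ) (i : Fin (n + 1)) : MeasurableSet (cone A x i) := by
  have hpi : Measurable (fun p : Fin (n + 1) → ℝ => p i) := measurable_pi_apply i
  have hf : Measurable
      (fun p : Fin (n + 1) → ℝ => (x i - p i)⁻¹ • (x i • p - p i • x)) := by
    rw [measurable_pi_iff]
    intro j
    simp only [Pi.smul_apply, Pi.sub_apply, smul_eq_mul]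
    have hpj : Measurable (fun p : Fin (n + 1) → ℝ => p j) := measurable_pi_apply j
    exact ((measurable_const.sub hpi).inv).mul
      ((measurable_const.mul hpj).sub (hpi.mul measurable_const))
  have h1 : MeasurableSet {p : Fin (n + 1) → ℝ | 0 < p i} :=
    measurableSet_lt measurable_const hpi
  have h2 : MeasurableSet {p : Fin (n + 1) → ℝ | p i < x i} :=
    measurableSet_lt hpi measurable_const
  have h3 : MeasurableSet
      {p : Fin (n + 1) → ℝ | ∀ j, j ≠ i → 0 < x i * p j - p i * x j} := by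
    have : {p : Fin (n + 1) → ℝ | ∀ j, j ≠ i → 0 < x i * p j - p i * x j} =
        ⋂ j, {p : Fin (n + 1) → ℝ | j ≠ i → 0 < x i * p j - p i * x j} := by
      ext p
      simp
    rw [this]
    refine MeasurableSet.iInter (fun j => ?_)
    by_cases hj : j = i
    · simp [hj]
    · simp only [ne_eq, hj, not_false_eq_true, forall_const]
      exact measurableSet_lt measurable_const
        ((measurable_const.mul (measurable_pi_apply j)).sub (hpi.mul measurable_const))
  have h4 : MeasurableSet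
      {p : Fin (n + 1) → ℝ | (x i - p i)⁻¹ • (x i • p - p i • x) ∈ A} :=
    hf hA.measurableSet
  have : cone A x i =
      {p : Fin (n + 1) → ℝ | 0 < p i} ∩ ({p | p i < x i} ∩
        ({p | ∀ j, j ≠ i → 0 < x i * p j - p i * x j} ∩
          {p | (x i - p i)⁻¹ • (x i • p - p i • x) ∈ A})) := by
    ext p
    simp [cone]
  rw [this]
  exact h1.inter (h2.inter (h3.inter h4))

end Vale.Agent.Lib.P248.H50
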