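import Mathlib
import Vale.Agent.Lib.P248.helper25.ABDefs

namespace Vale.Agent.Lib.P248.H50

open Vale.Agent.Lib.P248.H25 MeasureTheory
open scoped ENNReal

theorem slice_eq {n : ℕ} (A : Set (Fin (n + 1) → ℝ)) (x : Fin (n + 1) → ℝ)
    (i : Fin (n + 1)) {s : ℝ} (hs0 : 0 < s) (hs : s < x i) :
    {z : Fin n → ℝ | (i.insertNth s z : Fin (n + 1) → ℝ) ∈ cone A x i} =
      (fun z : Fin n → ℝ => (x i - s)⁻¹ • (x i • z - s • (fun j => x (i.succAbove j)))) ⁻¹'
        (sec A i ∩ {b | ∀ j, 0 < b j}) := by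
  have hpos : 0 < (x i - s)⁻¹ := inv_pos.mpr (sub_pos.mpr hs)
  have hkey : ∀ z : Fin n → ℝ,
      (i.insertNth (0 : ℝ)
        ((x i - s)⁻¹ • (x i • z - s • (fun j => x (i.succAbove j)))) : Fin (n + 1) → ℝ) =
      (x i - s)⁻¹ • (x i • (i.insertNth s z : Fin (n + 1) → ℝ) - s • x) := by
    intro z
    funext j
    refine Fin.succAboveCases i ?_ (fun k => ?_) j
    · simp [Fin.insertNth_apply_same]
      right
      ring
    · simp [Fin.insertNth_apply_succAbove]
  ext z
  simp only [Set.mem_ofPred_eq, Set.mem_preimage, Set.mem_inter_iff, cone, sec]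
  rw [hkey z]
  simp only [Fin.insertNth_apply_same]
  constructor
  · rintro ⟨_, _, h3, h4⟩
    refine ⟨h4, fun k => ?_⟩
    have := h3 (i.succAbove k) (Fin.succAbove_ne i k)
    rw [Fin.insertNth_apply_succAbove] at this
    simp only [Pi.smul_apply, Pi.sub_apply, smul_eq_mul]
    exact mul_pos hpos this
  · rintro ⟨h4, h3⟩
    refine ⟨hs0, hs, fun j hj => ?_, h4⟩
    obtain ⟨k, rfl⟩ := Fin.exists_succAbove_eq hj
    rw [Fin.insertNth_apply_succAbove]
    have := h3 k
    simp only [Pi.smul_apply, Pi.sub_apply, smul_eq_mul] at this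
    exact (mul_pos_iff_of_pos_left hpos).mp this

end Vale.Agent.Lib.P248.H50
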